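import Vale.Agent.P235.K5.H863.V8
import Vale.Agent.P235.K5.W.H246.Touch

/-!
P235, line K5, [WAG], row [W-V8] (helper863), final form: `v8` with the trichotomy of helper246.
-/

set_option autoImplicit false

namespace Vale.Agent.P235.K5.H863

open SimpleGraph Vale.Agent.P235.H134 Vale.Agent.P235.H56 Vale.Agent.P235.K5.W.H531

theorem typeStmt : TypeStmt := by
  intro V _ G X N hX hN
  rcases Vale.Agent.P235.K5.W.H246.trichotomy hX N hN with
    ⟨P, Q, a, b, c, d, e, f⟩ | ⟨Y, a, b, c, d, e⟩ | ⟨h, hh, hC⟩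
  · exact Or.inr (Or.inl ⟨P, Q, a, b, c, d, e, f⟩)
  · exact Or.inr (Or.inr ⟨Y, fun j => a ▸ Set.subset_iUnion Y j, c, b, d,
      fun j => (e j j).2 rfl⟩)
  · refine Or.inl ⟨h, hh, fun C hC' hCc i j hi hj => ?_⟩
    exact hC C (hC'.trans Set.sdiff_subset) (fun h1 => (hC' h1).2 rfl) hCc i j hi hj

variable {V : Type} {G : SimpleGraph V}

/-- [W-V8]: a partition of a 3-connected graph without a `K_5` minor into eight connected parts
which touch along the edges of `V_8` consists of single vertices, and the graph is `V_8`. -/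
theorem wV8 [Finite V] (h3 : Conn3 G) (hK : ¬ IsMinor (⊤ : SimpleGraph (Fin 5)) G)
    {X : Fin 8 → Set V} (h : Mod G X) (hu : ∀ v, ∃ i, v ∈ X i) :
    ∃ z : Fin 8 → V, (∀ i, X i = {z i}) ∧ Function.Bijective z ∧
      (∀ i j, G.Adj (z i) (z j) ↔ V8.Adj i j) :=
  v8 typeStmt h3 hK h hu

theorem wV8_card [Finite V] (h3 : Conn3 G) (hK : ¬ IsMinor (⊤ : SimpleGraph (Fin 5)) G)
    {X : Fin 8 → Set V} (h : Mod G X) (hu : ∀ v, ∃ i, v ∈ X i) : Nat.card V = 8 :=
  v8_card typeStmt h3 hK h hu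

/-- the same from a map onto the eight vertices -/
theorem wV8_map [Finite V] (h3 : Conn3 G) (hK : ¬ IsMinor (⊤ : SimpleGraph (Fin 5)) G)
    (f : V → Fin 8) (hc : ∀ i, (G.induce (f ⁻¹' {i})).Connected)
    (ht : ∀ i j, V8.Adj i j → ∃ x y, f x = i ∧ f y = j ∧ G.Adj x y) :
    ∃ z : Fin 8 → V, Function.Bijective z ∧ (∀ i, f (z i) = i) ∧
      (∀ i j, G.Adj (z i) (z j) ↔ V8.Adj i j) := by
  obtain ⟨z, h1, h2, h4⟩ := wV8 (X := fun i => f ⁻¹' {i}) h3 hK
    ⟨hc, fun i j hij => Set.disjoint_left.2 fun v hi hj => hij (hi.symm.trans hj),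
      fun i j hij => by
        obtain ⟨x, y, hx, hy, hxy⟩ := ht i j hij
        exact ⟨x, hx, y, hy, hxy⟩⟩ (fun v => ⟨f v, rfl⟩)
  refine ⟨z, h2, fun i => ?_, h4⟩
  have : z i ∈ f ⁻¹' {i} := by rw [h1 i]; rfl
  exact this

end Vale.Agent.P235.K5.H863
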