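import Vale.Agent.P235.K5.H521.Fat
import Vale.Agent.P235.K5.H863.V8Fin

/-!
P235, line K5, [WAG], row [W-V8] with `V8Model` of H521 as input (helper863).
-/

set_option autoImplicit false

namespace Vale.Agent.P235.K5.H863

open SimpleGraph Vale.Agent.P235.H134 Vale.Agent.P235.H56

variable {V : Type} {G : SimpleGraph V}

/-- a `V_8`-model (partition) in a 3-connected graph without a `K_5` minor: the graph is `V_8` -/
theorem v8Model_iso [Finite V] (h3 : Conn3 G) (hK : ¬ IsMinor (⊤ : SimpleGraph (Fin 5)) G)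
    (h : H521.V8Model G) :
    ∃ z : Fin 8 → V, Function.Bijective z ∧ (∀ i j, G.Adj (z i) (z j) ↔ V8.Adj i j) := by
  obtain ⟨p, h1, h2, h4, h5⟩ := h
  obtain ⟨z, -, hz, hadj⟩ := wV8 (X := p) h3 hK ⟨h1, h2, fun i j hij => by
    unfold va at hij
    simp only [Bool.or_eq_true, beq_iff_eq] at hij
    rcases hij with (h | h) | h
    · subst h
      obtain ⟨x, hx, y, hy, e⟩ := (h5 i).1
      exact ⟨x, hx, y, hy, e⟩
    · subst h
      obtain ⟨x, hx, y, hy, e⟩ := (h5 j).1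
      exact ⟨y, hy, x, hx, e.symm⟩
    · subst h
      obtain ⟨x, hx, y, hy, e⟩ := (h5 i).2
      exact ⟨x, hx, y, hy, e⟩⟩ h4
  exact ⟨z, hz, hadj⟩

theorem va_tfree : ∀ i j k : Fin 8, va i j = true → va j k = true → va i k = true → False := by
  decide

/-- `|V| = 8` and no triangle -/
theorem v8Model_card [Finite V] (h3 : Conn3 G) (hK : ¬ IsMinor (⊤ : SimpleGraph (Fin 5)) G)
    (h : H521.V8Model G) :
    Nat.card V = 8 ∧ ∀ x y z, G.Adj x y → G.Adj y z → ¬ G.Adj x z := by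
  obtain ⟨z, hz, hadj⟩ := v8Model_iso h3 hK h
  refine ⟨?_, ?_⟩
  · rw [← Nat.card_congr (Equiv.ofBijective z hz)]
    simp
  · intro x y w hxy hyw hxw
    obtain ⟨i, rfl⟩ := hz.2 x
    obtain ⟨j, rfl⟩ := hz.2 y
    obtain ⟨k, rfl⟩ := hz.2 w
    exact va_tfree i j k ((hadj i j).1 hxy) ((hadj j k).1 hyw) ((hadj i k).1 hxw)

end Vale.Agent.P235.K5.H863
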