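import Vale.Agent.P235.K5.W.H531.Dich

/-!
P235, line K5, [WAG] (helper972 #16595, #17165), row [W-V8] (helper863): eight connected parts
whose quotient contains the Wagner graph `V_8`, `G` 3-connected without a `K_5` minor: the parts are
single vertices and `G` is `V_8`.
-/

set_option autoImplicit false

namespace Vale.Agent.P235.K5.H863

open SimpleGraph Vale.Agent.P235.H134 Vale.Agent.P235.H56 Vale.Agent.P235.K5.W.H531

/-- adjacency of the Wagner graph `V_8` -/
def va (i j : Fin 8) : Bool := j == i + 1 || i == j + 1 || j == i + 4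

/-- the three neighbours of `i` -/
def nb (i : Fin 8) : Fin 3 → Fin 8 := ![i + 1, i + 7, i + 4]

/-- The Wagner graph `V_8`. -/
def V8 : SimpleGraph (Fin 8) where
  Adj i j := va i j = true
  symm := ⟨by unfold va; decide⟩
  loopless := ⟨by unfold va; decide⟩

variable {V : Type} {G : SimpleGraph V}

theorem va_symm : ∀ i j, va i j = true → va j i = true := by decide

theorem va_ne : ∀ i j, va i j = true → i ≠ j := by decide

theorem va_nb : ∀ i j, va i j = true ↔ ∃ a, nb i a = j := by decide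

theorem nb_inj : ∀ i a b, nb i a = nb i b → a = b := by decide

theorem nb_nb : ∀ i a b, a ≠ b → va (nb i a) (nb i b) = false := by decide

/-- A `V_8`-model: eight connected disjoint sets, touching along the edges of `V_8`. -/
structure Mod (G : SimpleGraph V) (X : Fin 8 → Set V) : Prop where
  con : ∀ i, Con G (X i)
  dis : ∀ i j, i ≠ j → Disjoint (X i) (X j)
  tch : ∀ i j, va i j = true → Tch G (X i) (X j)

/-- tables for `V_8 + {i, i+2}` and `V_8 + {i, i+3}` -/
def tp (c : Bool) (i : Fin 8) : Fin 5 → Fin 8 :=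
  fun a => i + (bif c then ![0, 2, 1, 3, 6] a else ![0, 3, 1, 4, 6] a)

/-- second table -/
def tq (c : Bool) (i : Fin 8) : Fin 5 → Fin 8 :=
  fun a => i + (bif c then ![0, 2, 5, 4, 7] a else ![0, 3, 2, 5, 7] a)

/-- the end of the additional edge -/
def te (c : Bool) (i : Fin 8) : Fin 8 := bif c then i + 2 else i + 3

theorem tab1 : ∀ c i a, tp c i a = tq c i a ∨ va (tp c i a) (tq c i a) = true := by decide

theorem tab2 : ∀ c i a b, a ≠ b → tp c i a ≠ tp c i b ∧ tp c i a ≠ tq c i b ∧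
    tq c i a ≠ tp c i b ∧ tq c i a ≠ tq c i b := by decide

/-- adjacency with the additional edge -/
def vb (s t i j : Fin 8) : Bool := va i j || (i == s && j == t) || (i == t && j == s)

theorem tab3 : ∀ c i a b, a < b → vb i (te c i) (tp c i a) (tp c i b) = true ∨
    vb i (te c i) (tp c i a) (tq c i b) = true ∨ vb i (te c i) (tq c i a) (tp c i b) = true ∨
    vb i (te c i) (tq c i a) (tq c i b) = true := by decide

theorem nonadj : ∀ i j : Fin 8, i ≠ j → va i j = false →
    ∃ c, j = te c i ∨ i = te c j := by decide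

/-- `V_8` and one more edge: `K_5` -/
theorem extra' {X : Fin 8 → Set V} (h : Mod G X) (c : Bool) (i : Fin 8)
    (ht : Tch G (X i) (X (te c i))) : IsMinor (⊤ : SimpleGraph (Fin 5)) G := by
  have hv : ∀ s t, vb i (te c i) s t = true → Tch G (X s) (X t) := by
    intro s t hst
    unfold vb at hst
    simp only [Bool.or_eq_true, Bool.and_eq_true, beq_iff_eq] at hst
    rcases hst with (hst | ⟨rfl, rfl⟩) | ⟨rfl, rfl⟩
    · exact h.tch s t hst
    · exact ht
    · exact ht.symm
  refine k5_family h.con h.dis (tp c i) (tq c i) (fun a => ?_) (tab2 c i) (fun a b hab => ?_)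
  · rcases tab1 c i a with h1 | h1
    · exact Or.inl h1
    · exact Or.inr (h.tch _ _ h1)
  · rcases tab3 c i a b hab with h1 | h1 | h1 | h1
    · exact Or.inl (hv _ _ h1)
    · exact Or.inr (Or.inl (hv _ _ h1))
    · exact Or.inr (Or.inr (Or.inl (hv _ _ h1)))
    · exact Or.inr (Or.inr (Or.inr (hv _ _ h1)))

theorem extra {X : Fin 8 → Set V} (h : Mod G X) {i j : Fin 8} (hij : i ≠ j)
    (hn : va i j = false) (ht : Tch G (X i) (X j)) : IsMinor (⊤ : SimpleGraph (Fin 5)) G := by
  obtain ⟨c, rfl | rfl⟩ := nonadj i j hij hn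
  · exact extra' h c i ht
  · exact extra' h c j ht.symm

theorem va_of_tch {X : Fin 8 → Set V} (h : Mod G X) (hK : ¬ IsMinor (⊤ : SimpleGraph (Fin 5)) G)
    {i j : Fin 8} (hij : i ≠ j) (ht : Tch G (X i) (X j)) : va i j = true := by
  by_contra hn
  exact hK (extra h hij (by simpa using hn) ht)

theorem choose3 : ∀ A B : Fin 3 → Bool, (∀ j, A j = true ∨ B j = true) →
    (∃ i j, i ≠ j ∧ A i = true ∧ A j = true) → (∃ i j, i ≠ j ∧ B i = true ∧ B j = true) →
    ∃ x y z : Fin 3, x ≠ y ∧ x ≠ z ∧ y ≠ z ∧ A x = true ∧ A y = true ∧ B y = true ∧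
      B z = true := by decide

theorem three : ∀ x y z a : Fin 3, x ≠ y → x ≠ z → y ≠ z → a = x ∨ a = y ∨ a = z := by decide

/-- a fat split of a part: `K_5` -/
theorem fat {X : Fin 8 → Set V} (h : Mod G X) (i : Fin 8) {P Q : Set V} (hPQ : P ∪ Q = X i)
    (hd : Disjoint P Q) (hP : Con G P) (hQ : Con G Q)
    (h1 : ∃ a b, a ≠ b ∧ Tch G P (X (nb i a)) ∧ Tch G P (X (nb i b)))
    (h2 : ∃ a b, a ≠ b ∧ Tch G Q (X (nb i a)) ∧ Tch G Q (X (nb i b))) :
    IsMinor (⊤ : SimpleGraph (Fin 5)) G := by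
  classical
  have hPn : P.Nonempty := by
    obtain ⟨⟨v, hv⟩⟩ := hP.nonempty
    exact ⟨v, hv⟩
  have hQn : Q.Nonempty := by
    obtain ⟨⟨v, hv⟩⟩ := hQ.nonempty
    exact ⟨v, hv⟩
  have htt : Tch G P Q := tch_of_split (h.con i) hPQ hPn hQn hd
  have hPX : P ⊆ X i := hPQ ▸ Set.subset_union_left
  have hQX : Q ⊆ X i := hPQ ▸ Set.subset_union_right
  obtain ⟨x, y, z, hxy, hxz, hyz, p1, p2, q2, q3⟩ := choose3
    (fun j => decide (Tch G P (X (nb i j)))) (fun j => decide (Tch G Q (X (nb i j))))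
    (fun j => by
      have hj := h.tch i (nb i j) ((va_nb i _).2 ⟨j, rfl⟩)
      rw [← hPQ, tch_union_left] at hj
      simpa using hj)
    (by obtain ⟨a, b, e, f, g⟩ := h1; exact ⟨a, b, e, by simpa using f, by simpa using g⟩)
    (by obtain ⟨a, b, e, f, g⟩ := h2; exact ⟨a, b, e, by simpa using f, by simpa using g⟩)
  simp only [decide_eq_true_eq] at p1 p2 q2 q3
  have hiz : i ≠ nb i z := va_ne _ _ ((va_nb i _).2 ⟨z, rfl⟩)
  have hiy : i ≠ nb i y := va_ne _ _ ((va_nb i _).2 ⟨y, rfl⟩)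
  have hix : i ≠ nb i x := va_ne _ _ ((va_nb i _).2 ⟨x, rfl⟩)
  let Y : Fin 8 → Set V := fun k => if k = i then P else if k = nb i z then X (nb i z) ∪ Q else X k
  have Yi : Y i = P := by simp [Y]
  have Yz : Y (nb i z) = X (nb i z) ∪ Q := by simp [Y, hiz.symm]
  have Yk : ∀ k, k ≠ i → k ≠ nb i z → Y k = X k := fun k a b => by simp [Y, a, b]
  have Ysup : ∀ k, k ≠ i → X k ⊆ Y k := by
    intro k hk
    by_cases hz : k = nb i z
    · subst hz; rw [Yz]; exact Set.subset_union_left
    · rw [Yk k hk hz]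
  have Ysub : ∀ k, k ≠ i → Y k ⊆ X k ∪ Q := by
    intro k hk
    by_cases hz : k = nb i z
    · subst hz; rw [Yz]
    · rw [Yk k hk hz]; exact Set.subset_union_left
  have hdQ : ∀ k, k ≠ i → Disjoint (X k) Q := fun k hk =>
    Set.disjoint_of_subset_right hQX (h.dis k i hk)
  have hdP : ∀ k, k ≠ i → Disjoint (X k) P := fun k hk =>
    Set.disjoint_of_subset_right hPX (h.dis k i hk)
  have YdP : ∀ k, k ≠ i → Disjoint (Y k) P := fun k hk =>
    Set.disjoint_of_subset_left (Ysub k hk) (Set.disjoint_union_left.2 ⟨hdP k hk, hd.symm⟩)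
  have hY : Mod G Y := by
    refine ⟨fun k => ?_, fun k l hkl => ?_, fun k l hkl => ?_⟩
    · by_cases hk : k = i
      · subst hk; rw [Yi]; exact hP
      · by_cases hz : k = nb i z
        · subst hz; rw [Yz]; exact con_union (h.con _) hQ q3.symm
        · rw [Yk k hk hz]; exact h.con k
    · by_cases hk : k = i
      · subst hk; rw [Yi]; exact (YdP l (Ne.symm hkl)).symm
      · by_cases hl : l = i
        · subst hl; rw [Yi]; exact YdP k hk
        · by_cases hz : k = nb i z
          · subst hz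
            rw [Yz, Yk l hl (Ne.symm hkl)]
            exact Set.disjoint_union_left.2 ⟨h.dis _ _ hkl, (hdQ l hl).symm⟩
          · rw [Yk k hk hz]
            exact Set.disjoint_of_subset_right (Ysub l hl)
              (Set.disjoint_union_right.2 ⟨h.dis k l hkl, hdQ k hk⟩)
    · have main : ∀ l, va i l = true → Tch G (Y i) (Y l) := by
        intro l hl
        obtain ⟨a, rfl⟩ := (va_nb i l).1 hl
        rw [Yi]
        rcases three x y z a hxy hxz hyz with rfl | rfl | rfl
        · exact p1.mono le_rfl (Ysup _ hix.symm)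
        · exact p2.mono le_rfl (Ysup _ hiy.symm)
        · rw [Yz]; exact htt.mono le_rfl Set.subset_union_right
      by_cases hk : k = i
      · subst hk; exact main l hkl
      · by_cases hl : l = i
        · subst hl; exact (main k (va_symm _ _ hkl)).symm
        · exact (h.tch k l hkl).mono (Ysup k hk) (Ysup l hl)
  have hne : nb i z ≠ nb i y := fun e => hyz (nb_inj _ _ _ e).symm
  refine extra hY hne (nb_nb i z y (Ne.symm hyz)) ?_
  rw [Yz, Yk (nb i y) hiy.symm hne.symm]
  exact q2.mono Set.subset_union_right le_rfl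

theorem va_add : ∀ i j k : Fin 8, va (i + j) (i + k) = va j k := by decide

/-- a triangle part: `K_5` -/
theorem tri {X : Fin 8 → Set V} (h : Mod G X) (i : Fin 8) {U : Fin 3 → Set V}
    (hU : ∀ j, U j ⊆ X i) (hUc : ∀ j, Con G (U j)) (hUd : ∀ a b, a ≠ b → Disjoint (U a) (U b))
    (hUt : ∀ a b, a ≠ b → Tch G (U a) (U b)) (hUn : ∀ a, Tch G (U a) (X (nb i a))) :
    IsMinor (⊤ : SimpleGraph (Fin 5)) G := by
  have hd : ∀ (j k : Fin 8), j ≠ k → Disjoint (X (i + j)) (X (i + k)) := fun j k hjk =>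
    h.dis _ _ (fun e => hjk (add_left_cancel e))
  have hdU : ∀ (a : Fin 3) (j : Fin 8), j ≠ 0 → Disjoint (U a) (X (i + j)) := fun a j hj =>
    Set.disjoint_of_subset_left (hU a) (h.dis _ _ (fun e => hj (by
      have : i + 0 = i + j := by simpa using e
      exact (add_left_cancel this).symm)))
  have t : ∀ j k : Fin 8, va j k = true → Tch G (X (i + j)) (X (i + k)) := fun j k hjk =>
    h.tch _ _ (by rw [va_add]; exact hjk)
  have u0 : Tch G (U 0) (X (i + 1)) := hUn 0
  have u1 : Tch G (U 1) (X (i + 7)) := hUn 1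
  have u2 : Tch G (U 2) (X (i + 4)) := hUn 2
  refine k5_of ![U 0 ∪ X (i + 1), U 1 ∪ X (i + 7), U 2 ∪ X (i + 4), X (i + 2) ∪ X (i + 3),
    X (i + 5) ∪ X (i + 6)] ?_ ?_ ?_
  · intro a
    fin_cases a
    · exact con_union (hUc 0) (h.con _) u0
    · exact con_union (hUc 1) (h.con _) u1
    · exact con_union (hUc 2) (h.con _) u2
    · exact con_union (h.con _) (h.con _) (t 2 3 (by decide))
    · exact con_union (h.con _) (h.con _) (t 5 6 (by decide))
  · have UX : ∀ (a b : Fin 3) (j k : Fin 8), a ≠ b → j ≠ 0 → k ≠ 0 → j ≠ k →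
        Disjoint (U a ∪ X (i + j)) (U b ∪ X (i + k)) := fun a b j k hab hj hk hjk =>
      Set.disjoint_union_left.2 ⟨Set.disjoint_union_right.2 ⟨hUd a b hab, hdU a k hk⟩,
        Set.disjoint_union_right.2 ⟨(hdU b j hj).symm, hd j k hjk⟩⟩
    have UXX : ∀ (a : Fin 3) (j k l : Fin 8), j ≠ 0 → k ≠ 0 → l ≠ 0 → j ≠ k → j ≠ l →
        Disjoint (U a ∪ X (i + j)) (X (i + k) ∪ X (i + l)) := fun a j k l _ hk hl hjk hjl =>
      Set.disjoint_union_left.2 ⟨Set.disjoint_union_right.2 ⟨hdU a k hk, hdU a l hl⟩,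
        Set.disjoint_union_right.2 ⟨hd j k hjk, hd j l hjl⟩⟩
    have key : ∀ a b : Fin 5, a < b → Disjoint
        ((![U 0 ∪ X (i + 1), U 1 ∪ X (i + 7), U 2 ∪ X (i + 4), X (i + 2) ∪ X (i + 3),
          X (i + 5) ∪ X (i + 6)] : Fin 5 → Set V) a)
        ((![U 0 ∪ X (i + 1), U 1 ∪ X (i + 7), U 2 ∪ X (i + 4), X (i + 2) ∪ X (i + 3),
          X (i + 5) ∪ X (i + 6)] : Fin 5 → Set V) b) := by
      intro a b hab
      fin_cases a <;> fin_cases b <;>
        first
        | exact absurd hab (by decide)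
        | exact UX 0 1 1 7 (by decide) (by decide) (by decide) (by decide)
        | exact UX 0 2 1 4 (by decide) (by decide) (by decide) (by decide)
        | exact UX 1 2 7 4 (by decide) (by decide) (by decide) (by decide)
        | exact UXX 0 1 2 3 (by decide) (by decide) (by decide) (by decide) (by decide)
        | exact UXX 0 1 5 6 (by decide) (by decide) (by decide) (by decide) (by decide)
        | exact UXX 1 7 2 3 (by decide) (by decide) (by decide) (by decide) (by decide)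
        | exact UXX 1 7 5 6 (by decide) (by decide) (by decide) (by decide) (by decide)
        | exact UXX 2 4 2 3 (by decide) (by decide) (by decide) (by decide) (by decide)
        | exact UXX 2 4 5 6 (by decide) (by decide) (by decide) (by decide) (by decide)
        | exact Set.disjoint_union_left.2 ⟨Set.disjoint_union_right.2
            ⟨hd 2 5 (by decide), hd 2 6 (by decide)⟩, Set.disjoint_union_right.2
            ⟨hd 3 5 (by decide), hd 3 6 (by decide)⟩⟩
    intro a b hab
    rcases lt_or_gt_of_ne hab with hl | hl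
    · exact key a b hl
    · exact (key b a hl).symm
  · intro a b hab
    have c1 : ∀ {A B C D : Set V}, Tch G A C → Tch G (A ∪ B) (C ∪ D) := fun h =>
      h.mono Set.subset_union_left Set.subset_union_left
    have c2 : ∀ {A B C D : Set V}, Tch G B C → Tch G (A ∪ B) (C ∪ D) := fun h =>
      h.mono Set.subset_union_right Set.subset_union_left
    have c3 : ∀ {A B C D : Set V}, Tch G B D → Tch G (A ∪ B) (C ∪ D) := fun h =>
      h.mono Set.subset_union_right Set.subset_union_right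
    fin_cases a <;> fin_cases b <;>
      first
      | exact absurd hab (by decide)
      | exact c1 (hUt 0 1 (by decide))
      | exact c1 (hUt 0 2 (by decide))
      | exact c1 (hUt 1 2 (by decide))
      | exact c2 (t 1 2 (by decide))
      | exact c2 (t 1 5 (by decide))
      | exact c3 (t 7 3 (by decide))
      | exact c3 (t 7 6 (by decide))
      | exact c3 (t 4 3 (by decide))
      | exact c2 (t 4 5 (by decide))
      | exact (c2 (t 6 2 (by decide))).symm

/-- one vertex, connected -/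
theorem con_sing (v : V) : Con G {v} := conn_single G v

/-- A vertex `h` of `X i` such that every connected subset of `X i - h` touches at most one of the
three neighbouring parts. -/
def IsHub (G : SimpleGraph V) (X : Fin 8 → Set V) (i : Fin 8) (h : V) : Prop :=
  h ∈ X i ∧ ∀ C ⊆ X i \ {h}, Con G C → ∀ a b, Tch G C (X (nb i a)) → Tch G C (X (nb i b)) → a = b

/-- all parts are hubs: all parts are single vertices -/
theorem hubs (h3 : Conn3 G) (hK : ¬ IsMinor (⊤ : SimpleGraph (Fin 5)) G) {X : Fin 8 → Set V}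
    (h : Mod G X) (hu : ∀ v, ∃ i, v ∈ X i) {z : Fin 8 → V} (hz : ∀ i, IsHub G X i (z i)) :
    ∀ i, X i = {z i} := by
  have hmem : ∀ {v : V} {i j : Fin 8}, v ∈ X i → v ∈ X j → i = j := by
    intro v i j hi hj
    by_contra hij
    exact Set.disjoint_left.1 (h.dis i j hij) hi hj
  have tri3 : ∀ i j : Fin 8, ∃ k, k ≠ i ∧ k ≠ j := by decide
  have hne : ∀ k, ∃ v, v ∈ X k := fun k => ⟨z k, (hz k).1⟩
  -- the part between the two hubs
  let D : Fin 8 → Fin 8 → Set V := fun i j =>
    {v | v ∈ X i \ {z i} ∧ ∃ C ⊆ X i \ {z i}, Con G C ∧ v ∈ C ∧ Tch G C (X j)}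
  have hext : ∀ {S C : Set V} {u v : V}, C ⊆ S → Con G C → u ∈ C → v ∈ S → G.Adj u v →
      ∃ C' ⊆ S, Con G C' ∧ v ∈ C' ∧ C ⊆ C' := by
    intro S C u v hCS hC hu hv huv
    refine ⟨C ∪ {v}, Set.union_subset hCS (Set.singleton_subset_iff.2 hv),
      con_union hC (con_sing v) ⟨u, hu, v, rfl, huv⟩, Or.inr rfl, Set.subset_union_left⟩
  -- closedness of `D i j ∪ D j i`
  have hcl : ∀ i j, va i j = true → ∀ u ∈ D i j, ∀ v, G.Adj u v →
      v ∈ D i j ∪ D j i ∨ v = z i ∨ v = z j := by
    rintro i j hij u ⟨hu1, C, hCS, hC, huC, hCj⟩ v huv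
    obtain ⟨k, hk⟩ := hu v
    by_cases hki : k = i
    · subst hki
      by_cases hvz : v = z k
      · exact Or.inr (Or.inl hvz)
      · left; left
        obtain ⟨C', h1, h2, h3', h4⟩ := hext hCS hC huC ⟨hk, hvz⟩ huv
        exact ⟨⟨hk, hvz⟩, C', h1, h2, h3', hCj.mono h4 le_rfl⟩
    · have hCk : Tch G C (X k) := ⟨u, huC, v, hk, huv⟩
      have hik : va i k = true := va_of_tch h hK (Ne.symm hki)
        ⟨u, hu1.1, v, hk, huv⟩
      obtain ⟨a, rfl⟩ := (va_nb i k).1 hik
      obtain ⟨b, rfl⟩ := (va_nb i j).1 hij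
      have hab : a = b := (hz i).2 C hCS hC a b hCk hCj
      subst hab
      by_cases hvz : v = z (nb i a)
      · exact Or.inr (Or.inr hvz)
      · left; right
        exact ⟨⟨hk, hvz⟩, {v}, Set.singleton_subset_iff.2 ⟨hk, hvz⟩, con_sing v, rfl,
          v, rfl, u, hu1.1, huv.symm⟩
  have hzD : ∀ i j k, i ≠ j → z k ∉ D i j ∪ D j i := by
    rintro i j k hij (⟨⟨h1, h2⟩, -⟩ | ⟨⟨h1, h2⟩, -⟩)
    · have := hmem (hz k).1 h1
      subst this
      exact h2 rfl
    · have := hmem (hz k).1 h1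
      subst this
      exact h2 rfl
  have hD : ∀ i j, va i j = true → D i j = ∅ := by
    intro i j hij
    by_contra hne'
    obtain ⟨v, hv⟩ := Set.nonempty_iff_ne_empty.2 hne'
    have hji := va_symm i j hij
    have hij' := va_ne i j hij
    have := h3 (z i) (z j) (D i j ∪ D j i) ⟨v, Or.inl hv⟩ (hzD i j i hij') (hzD i j j hij')
      (by
        rintro u (hu' | hu') w huw
        · exact hcl i j hij u hu' w huw
        · rcases hcl j i hji u hu' w huw with h1 | h1 | h1
          · exact Or.inl (Set.union_comm _ _ ▸ h1)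
          · exact Or.inr (Or.inr h1)
          · exact Or.inr (Or.inl h1))
    obtain ⟨k, hki, hkj⟩ := tri3 i j
    rcases this (z k) with (h1 | h1) | h1 | h1
    · exact hki (hmem (hz k).1 h1.1.1)
    · exact hkj (hmem (hz k).1 h1.1.1)
    · exact hki (hmem (hz k).1 (h1 ▸ (hz i).1))
    · exact hkj (hmem (hz k).1 (h1 ▸ (hz j).1))
  -- vertices that see no other part
  intro i
  by_contra hi
  let E : Set V := {v | v ∈ X i \ {z i}}
  have hE : E.Nonempty := by
    by_contra hE
    apply hi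
    apply Set.eq_of_subset_of_subset
    · intro v hv
      by_contra hvz
      exact hE ⟨v, hv, hvz⟩
    · exact Set.singleton_subset_iff.2 (hz i).1
  have hEno : ∀ v ∈ E, ∀ w, G.Adj v w → w ∈ E ∨ w = z i ∨ w = z i := by
    intro v hv w hvw
    obtain ⟨k, hk⟩ := hu w
    by_cases hki : k = i
    · subst hki
      by_cases hw : w = z k
      · exact Or.inr (Or.inl hw)
      · exact Or.inl ⟨hk, hw⟩
    · exfalso
      have hik : va i k = true := va_of_tch h hK (Ne.symm hki) ⟨v, hv.1, w, hk, hvw⟩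
      have : v ∈ D i k := ⟨hv, {v}, Set.singleton_subset_iff.2 hv, con_sing v, rfl, v, rfl, w,
        hk, hvw⟩
      rw [hD i k hik] at this
      exact this
  obtain ⟨k, hki, -⟩ := tri3 i i
  have := h3 (z i) (z i) E hE (fun h1 => h1.2 rfl) (fun h1 => h1.2 rfl) hEno (z k)
  rcases this with h1 | h1 | h1
  · exact hki (hmem (hz k).1 h1.1)
  · exact hki (hmem (hz k).1 (h1 ▸ (hz i).1))
  · exact hki (hmem (hz k).1 (h1 ▸ (hz i).1))

/-- The trichotomy for one part (with three labels `N j`), [W-HUB'] / [TRICHO]. -/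
def TypeStmt : Prop :=
  ∀ (V : Type) [Finite V] (G : SimpleGraph V) (X : Set V) (N : Fin 3 → Set V), Con G X →
    (∀ j, Tch G X (N j)) →
    (∃ h ∈ X, ∀ C ⊆ X \ {h}, Con G C → ∀ a b, Tch G C (N a) → Tch G C (N b) → a = b) ∨
    (∃ P Q : Set V, P ∪ Q = X ∧ Disjoint P Q ∧ Con G P ∧ Con G Q ∧
      (∃ a b, a ≠ b ∧ Tch G P (N a) ∧ Tch G P (N b)) ∧
      (∃ a b, a ≠ b ∧ Tch G Q (N a) ∧ Tch G Q (N b))) ∨
    (∃ U : Fin 3 → Set V, (∀ j, U j ⊆ X) ∧ (∀ j, Con G (U j)) ∧
      (∀ a b, a ≠ b → Disjoint (U a) (U b)) ∧ (∀ a b, a ≠ b → Tch G (U a) (U b)) ∧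
      ∀ a, Tch G (U a) (N a))

/-- [W-V8] -/
theorem v8 (hT : TypeStmt) [Finite V] (h3 : Conn3 G)
    (hK : ¬ IsMinor (⊤ : SimpleGraph (Fin 5)) G) {X : Fin 8 → Set V} (h : Mod G X)
    (hu : ∀ v, ∃ i, v ∈ X i) : ∃ z : Fin 8 → V, (∀ i, X i = {z i}) ∧ Function.Bijective z ∧
      (∀ i j, G.Adj (z i) (z j) ↔ V8.Adj i j) := by
  have hz : ∀ i, ∃ v, IsHub G X i v := by
    intro i
    rcases hT V G (X i) (fun a => X (nb i a)) (h.con i)
      (fun a => h.tch _ _ ((va_nb i _).2 ⟨a, rfl⟩)) with h1 | h1 | h1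
    · obtain ⟨v, hv, hv'⟩ := h1
      exact ⟨v, hv, hv'⟩
    · obtain ⟨P, Q, a, b, c, d, e, f⟩ := h1
      exact absurd (fat h i a b c d e f) hK
    · obtain ⟨U, a, b, c, d, e⟩ := h1
      exact absurd (tri h i a b c d e) hK
  choose z hz using hz
  have hX := hubs h3 hK h hu hz
  have hinj : Function.Injective z := by
    intro i j hij
    by_contra hne
    have h1 : z i ∈ X i := (hz i).1
    have h2 : z i ∈ X j := hij ▸ (hz j).1
    exact Set.disjoint_left.1 (h.dis i j hne) h1 h2
  refine ⟨z, hX, ⟨hinj, fun v => ?_⟩, fun i j => ⟨fun hij => ?_, fun hij => ?_⟩⟩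
  · obtain ⟨i, hi⟩ := hu v
    rw [hX i] at hi
    exact ⟨i, hi.symm⟩
  · refine va_of_tch h hK (fun e => ?_) ⟨z i, (hz i).1, z j, (hz j).1, hij⟩
    subst e
    exact G.irrefl hij
  · obtain ⟨x, hx, y, hy, hxy⟩ := h.tch i j hij
    rw [hX i] at hx
    rw [hX j] at hy
    rw [← Set.mem_singleton_iff.1 hx, ← Set.mem_singleton_iff.1 hy]
    exact hxy

/-- `|V| = 8` -/
theorem v8_card (hT : TypeStmt) [Finite V] (h3 : Conn3 G)
    (hK : ¬ IsMinor (⊤ : SimpleGraph (Fin 5)) G) {X : Fin 8 → Set V} (h : Mod G X)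
    (hu : ∀ v, ∃ i, v ∈ X i) : Nat.card V = 8 := by
  obtain ⟨z, -, hz, -⟩ := v8 hT h3 hK h hu
  rw [← Nat.card_congr (Equiv.ofBijective z hz)]
  simp

end Vale.Agent.P235.K5.H863
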