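import Vale.Agent.P235.K5.W.Defs
import Vale.Agent.P235.K5.H863.V8Fin

/-!
P235, line K5, [WAG], row [W-V8] in the letters of W/Defs (helper863): `V8Stmt`.
-/

set_option autoImplicit false

namespace Vale.Agent.P235.K5.H863

open SimpleGraph Vale.Agent.P235.H134 Vale.Agent.P235.H56

theorem conn_of_has8 {V : Type} {G : SimpleGraph V} {f : V → Fin 8}
    (hc : ∀ i, (G.induce {v | f v = i}).Connected)
    (ht : ∀ i j, W.V8.Adj i j → W.Tch G f i j) : G.Connected := by
  have hloc : ∀ u v : V, f u = f v → G.Reachable u v := by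
    intro u v huv
    have := (hc (f v)).preconnected ⟨u, huv⟩ ⟨v, rfl⟩
    exact this.map (Embedding.induce _).toHom
  have hstep : ∀ i : Fin 8, ∀ u v : V, f u = i → f v = i + 1 → G.Reachable u v := by
    intro i u v hu hv
    obtain ⟨x, y, hx, hy, hxy⟩ := ht i (i + 1) (Or.inl rfl)
    exact ((hloc u x (hu.trans hx.symm)).trans hxy.reachable).trans (hloc y v (hy.trans hv.symm))
  have hne : ∀ i : Fin 8, ∃ v, f v = i := fun i => by
    obtain ⟨⟨v, hv⟩⟩ := (hc i).nonempty
    exact ⟨v, hv⟩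
  obtain ⟨r, hr⟩ := hne 0
  have key : ∀ n : ℕ, ∀ v : V, f v = (Fin.ofNat 8 n) → G.Reachable r v := by
    intro n
    induction n with
    | zero => exact fun v hv => hloc r v (hr.trans hv.symm)
    | succ n ih =>
      intro v hv
      obtain ⟨w, hw⟩ := hne (Fin.ofNat 8 n)
      refine (ih w hw).trans (hstep (Fin.ofNat 8 n) w v hw ?_)
      rw [hv]
      ext
      simp [Fin.ofNat, Fin.val_add]
  have hall : ∀ v : V, G.Reachable r v := fun v => key (f v).val v (by
    ext
    exact (Nat.mod_eq_of_lt (f v).isLt).symm)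
  have : Nonempty V := ⟨r⟩
  exact ⟨fun u v => (hall u).symm.trans (hall v)⟩

theorem v8_tfree : ∀ i j k : Fin 8, va i j = true → va j k = true → va i k = true → False := by
  decide

/-- [W-V8] -/
theorem v8Stmt (hM : W.MkStmt) : W.V8Stmt := by
  intro V _ G h3 hK h8
  obtain ⟨f, hc, ht⟩ := h8
  have hG := conn_of_has8 hc ht
  have hK' : ¬ IsMinor (⊤ : SimpleGraph (Fin 5)) G := fun h =>
    hK ((hM V (Fin 5) (⊤ : SimpleGraph (Fin 5)) G hG).1 h)
  obtain ⟨z, hz, -, hadj⟩ := wV8_map h3 hK' f hc (fun i j hij => by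
    have hij' : W.V8.Adj i j := by
      change va i j = true at hij
      unfold va at hij
      simp only [Bool.or_eq_true, beq_iff_eq] at hij
      rcases hij with (h | h) | h
      · exact Or.inl h
      · exact Or.inr (Or.inl h)
      · exact Or.inr (Or.inr h)
    exact ht i j hij')
  refine ⟨?_, ?_⟩
  · rw [← Nat.card_congr (Equiv.ofBijective z hz)]
    simp
  · intro x y w hxy hyw hxw
    obtain ⟨i, rfl⟩ := hz.2 x
    obtain ⟨j, rfl⟩ := hz.2 y
    obtain ⟨k, rfl⟩ := hz.2 w
    exact v8_tfree i j k ((hadj i j).1 hxy) ((hadj j k).1 hyw) ((hadj i k).1 hxw)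

end Vale.Agent.P235.K5.H863
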